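import Mathlib

/-! Stepanov's theorem (a.e. differentiability of pointwise Lipschitz functions), deduced from
Rademacher's theorem in Mathlib by Malý's argument with Lipschitz envelopes. -/

namespace P198D

open MeasureTheory Filter Topology Metric Set

noncomputable section

set_option linter.unusedSectionVars false

variable {E : Type*} [NormedAddCommGroup E] [NormedSpace ℝ E] [FiniteDimensional ℝ E]
  [MeasurableSpace E] [BorelSpace E]

/-- smallest `n`-Lipschitz majorant of `f` on the set `B`. -/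
def upEnv (f : E → ℝ) (B : Set E) (n : ℝ) (x : E) : ℝ := ⨆ y : B, (f y - n * dist x y)

theorem upEnv_bdd {f : E → ℝ} {B : Set E} {n : ℝ} (hn : 0 ≤ n) {M : ℝ} (hM : ∀ y ∈ B, f y ≤ M)
    (x : E) : BddAbove (Set.range fun y : B => f y - n * dist x y) := by
  refine ⟨M, ?_⟩
  rintro _ ⟨y, rfl⟩
  have h1 := hM y y.2
  have h2 : 0 ≤ n * dist x y := mul_nonneg hn dist_nonneg
  simp only
  linarith

theorem upEnv_lip {f : E → ℝ} {B : Set E} (hB : B.Nonempty) {n : NNReal} {M : ℝ}
    (hM : ∀ y ∈ B, f y ≤ M) : LipschitzWith n (upEnv f B n) := by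
  refine LipschitzWith.of_le_add_mul n fun x z => ?_
  have : Nonempty B := hB.to_subtype
  refine ciSup_le fun y => ?_
  have h1 : f y - n * dist z y ≤ upEnv f B n z :=
    le_ciSup (upEnv_bdd n.2 hM z) y
  have h2 : dist z y ≤ dist z x + dist x y := dist_triangle _ _ _
  have h3 : (n : ℝ) * dist z y ≤ n * (dist z x + dist x y) :=
    mul_le_mul_of_nonneg_left h2 n.2
  rw [dist_comm z x] at h3
  linarith

theorem le_upEnv {f : E → ℝ} {B : Set E} {n : ℝ} (hn : 0 ≤ n) {M : ℝ} (hM : ∀ y ∈ B, f y ≤ M)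
    {x : E} (hx : x ∈ B) : f x ≤ upEnv f B n x := by
  have h1 : f x - n * dist x x ≤ upEnv f B n x :=
    le_ciSup (upEnv_bdd hn hM x) (⟨x, hx⟩ : B)
  simpa using h1

theorem upEnv_le {f : E → ℝ} {B : Set E} {n : ℝ} {x : E} (hx : x ∈ B)
    (h : ∀ y ∈ B, f y - f x ≤ n * dist x y) : upEnv f B n x ≤ f x := by
  have : Nonempty B := ⟨⟨x, hx⟩⟩
  refine ciSup_le fun y => ?_
  have := h y y.2
  linarith

/-- squeeze lemma: `v ≤ f ≤ u` near `x` with equality at `x`, `u` and `v` differentiable at `x`. -/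
theorem differentiableAt_of_squeeze {f u v : E → ℝ} {x : E} (hu : DifferentiableAt ℝ u x)
    (hv : DifferentiableAt ℝ v x) (h1 : ∀ᶠ y in 𝓝 x, v y ≤ f y) (h2 : ∀ᶠ y in 𝓝 x, f y ≤ u y)
    (hux : u x = f x) (hvx : v x = f x) : DifferentiableAt ℝ f x := by
  have hmin : IsLocalMin (fun y => u y - v y) x := by
    filter_upwards [h1, h2] with y hy1 hy2
    rw [hux, hvx]
    linarith
  have hd : HasFDerivAt (fun y => u y - v y) (fderiv ℝ u x - fderiv ℝ v x) x :=
    hu.hasFDerivAt.sub hv.hasFDerivAt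
  have h0 : fderiv ℝ u x - fderiv ℝ v x = 0 := hmin.hasFDerivAt_eq_zero hd
  have h0' : fderiv ℝ v x = fderiv ℝ u x := (sub_eq_zero.1 h0).symm
  refine HasFDerivAt.differentiableAt (f' := fderiv ℝ u x) ?_
  rw [hasFDerivAt_iff_isLittleO]
  have hu' := (hasFDerivAt_iff_isLittleO.1 hu.hasFDerivAt)
  have hv' := (hasFDerivAt_iff_isLittleO.1 hv.hasFDerivAt)
  rw [h0'] at hv'
  have hsum := hu'.norm_left.add hv'.norm_left
  refine (Asymptotics.IsBigO.of_bound 1 ?_).trans_isLittleO hsum
  filter_upwards [h1, h2] with y hy1 hy2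
  rw [one_mul]
  have e1 : f y - f x - (fderiv ℝ u x) (y - x) ≤ ‖u y - u x - (fderiv ℝ u x) (y - x)‖ := by
    refine le_trans ?_ (le_abs_self _)
    rw [hux]
    linarith
  have e2 : -(f y - f x - (fderiv ℝ u x) (y - x)) ≤ ‖v y - v x - (fderiv ℝ u x) (y - x)‖ := by
    refine le_trans ?_ (neg_le_abs _)
    rw [hvx]
    linarith
  have e3 : 0 ≤ ‖u y - u x - (fderiv ℝ u x) (y - x)‖ := norm_nonneg _
  have e4 : 0 ≤ ‖v y - v x - (fderiv ℝ u x) (y - x)‖ := norm_nonneg _
  rw [Real.norm_eq_abs, Real.norm_of_nonneg (add_nonneg e3 e4), abs_le]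
  constructor <;> linarith

/-- Pointwise Lipschitz at `x`. -/
def PtLip {F : Type*} [PseudoMetricSpace F] (f : E → F) (x : E) : Prop :=
  ∃ K r : ℝ, 0 < r ∧ ∀ y, dist y x < r → dist (f y) (f x) ≤ K * dist y x

/-- **Stepanov's theorem**, real valued case. -/
theorem stepanov_real (f : E → ℝ) (μ : Measure E) [μ.IsAddHaarMeasure] :
    ∀ᵐ x ∂μ, PtLip f x → DifferentiableAt ℝ f x := by
  obtain ⟨D, hDc, hDd⟩ := TopologicalSpace.exists_countable_dense E
  have : Countable D := hDc.to_subtype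
  -- the envelopes are differentiable a.e.
  have key : ∀ᵐ x ∂μ, ∀ (c : D) (m n : ℕ) (M : ℕ), (∀ y ∈ ball (c : E) (1 / (m + 1 : ℝ)), |f y| ≤ M) →
      DifferentiableAt ℝ (upEnv f (ball (c : E) (1 / (m + 1 : ℝ))) ((n : NNReal) : ℝ)) x ∧
      DifferentiableAt ℝ (upEnv (fun y => - f y) (ball (c : E) (1 / (m + 1 : ℝ)))
        ((n : NNReal) : ℝ)) x := by
    rw [ae_all_iff]; intro c
    rw [ae_all_iff]; intro m
    rw [ae_all_iff]; intro n
    rw [ae_all_iff]; intro M
    by_cases hM : ∀ y ∈ ball (c : E) (1 / (m + 1 : ℝ)), |f y| ≤ M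
    · have hne : (ball (c : E) (1 / (m + 1 : ℝ))).Nonempty :=
        ⟨c, mem_ball_self (by positivity)⟩
      have l1 : LipschitzWith (n : NNReal) (upEnv f (ball (c : E) (1 / (m + 1 : ℝ)))
          ((n : NNReal) : ℝ)) := upEnv_lip (M := M) hne fun y hy => (le_abs_self _).trans (hM y hy)
      have l2 : LipschitzWith (n : NNReal) (upEnv (fun y => - f y) (ball (c : E) (1 / (m + 1 : ℝ)))
          ((n : NNReal) : ℝ)) :=
        upEnv_lip (M := M) hne fun y hy => (neg_le_abs _).trans (hM y hy)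
      filter_upwards [l1.ae_differentiableAt (μ := μ), l2.ae_differentiableAt (μ := μ)]
        with x h1 h2 _
      exact ⟨h1, h2⟩
    · filter_upwards with x h
      exact absurd h hM
  filter_upwards [key] with x hx hL
  obtain ⟨K, r, hr, hK⟩ := hL
  obtain ⟨m, hm⟩ := exists_nat_one_div_lt (half_pos hr)
  have hm0 : (0 : ℝ) < 1 / (m + 1 : ℝ) := by positivity
  obtain ⟨c, hcD, hc⟩ := hDd.exists_dist_lt x hm0
  obtain ⟨n, hn⟩ := exists_nat_ge K
  obtain ⟨M, hM⟩ := exists_nat_ge (|f x| + n * r)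
  have hxB : x ∈ ball c (1 / (m + 1 : ℝ)) := hc
  have hyr : ∀ y ∈ ball c (1 / (m + 1 : ℝ)), dist y x < r := by
    intro y hy
    have h1 : dist y x ≤ dist y c + dist c x := dist_triangle _ _ _
    have h2 : dist y c < 1 / (m + 1 : ℝ) := hy
    rw [dist_comm c x] at h1
    linarith
  have hbd : ∀ y ∈ ball c (1 / (m + 1 : ℝ)), |f y - f x| ≤ n * dist x y := by
    intro y hy
    have h1 := hK y (hyr y hy)
    rw [Real.dist_eq, dist_comm y x] at h1
    exact h1.trans (mul_le_mul_of_nonneg_right hn dist_nonneg)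
  have hMB : ∀ y ∈ ball c (1 / (m + 1 : ℝ)), |f y| ≤ M := by
    intro y hy
    have h1 := hbd y hy
    have h2 : (n : ℝ) * dist x y ≤ n * r := by
      refine mul_le_mul_of_nonneg_left ?_ (Nat.cast_nonneg n)
      rw [dist_comm]; exact (hyr y hy).le
    have h3 : |f y| ≤ |f y - f x| + |f x| := by
      have := abs_add_le (f y - f x) (f x)
      simpa using this
    linarith
  obtain ⟨d1, d2⟩ := hx ⟨c, hcD⟩ m n M hMB
  have hball : ball c (1 / (m + 1 : ℝ)) ∈ 𝓝 x := isOpen_ball.mem_nhds hxB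
  refine differentiableAt_of_squeeze d1 d2.neg ?_ ?_ ?_ ?_
  · filter_upwards [hball] with y hy
    have := le_upEnv (f := fun y => - f y) (B := ball c (1 / (m + 1 : ℝ))) (n := ((n : NNReal) : ℝ))
      (NNReal.coe_nonneg _) (M := M) (fun z hz => (neg_le_abs _).trans (hMB z hz)) hy
    simp only [Pi.neg_apply]
    linarith
  · filter_upwards [hball] with y hy
    exact le_upEnv (NNReal.coe_nonneg _) (M := M) (fun z hz => (le_abs_self _).trans (hMB z hz)) hy
  · refine le_antisymm (upEnv_le hxB fun y hy => ?_)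
      (le_upEnv (NNReal.coe_nonneg _) (M := M) (fun z hz => (le_abs_self _).trans (hMB z hz)) hxB)
    have := (le_abs_self _).trans (hbd y hy)
    simpa using this
  · have h1 := le_antisymm (upEnv_le (f := fun y => - f y) (n := ((n : NNReal) : ℝ)) hxB fun y hy => by
        have := (neg_le_abs _).trans (hbd y hy)
        simp only [NNReal.coe_natCast]
        linarith)
      (le_upEnv (f := fun y => - f y) (NNReal.coe_nonneg _) (M := M)
        (fun z hz => (neg_le_abs _).trans (hMB z hz)) hxB)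
    simp only [Pi.neg_apply]
    rw [h1]; ring

/-- **Stepanov's theorem** for maps into a finite dimensional space. -/
theorem stepanov {F : Type*} [NormedAddCommGroup F] [NormedSpace ℝ F] [FiniteDimensional ℝ F]
    (f : E → F) (μ : Measure E) [μ.IsAddHaarMeasure] :
    ∀ᵐ x ∂μ, PtLip f x → DifferentiableAt ℝ f x := by
  let b := Module.finBasis ℝ F
  have h : ∀ᵐ x ∂μ, ∀ i, PtLip (fun x => b.equivFunL (f x) i) x →
      DifferentiableAt ℝ (fun x => b.equivFunL (f x) i) x := by
    rw [ae_all_iff]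
    intro i
    exact stepanov_real _ μ
  filter_upwards [h] with x hx hL
  obtain ⟨K, r, hr, hK⟩ := hL
  have h1 : DifferentiableAt ℝ (fun x => b.equivFunL (f x)) x := by
    rw [differentiableAt_pi]
    intro i
    refine hx i ⟨‖b.equivFunL.toContinuousLinearMap‖ * K, r, hr, fun y hy => ?_⟩
    have e1 : dist (b.equivFunL (f y) i) (b.equivFunL (f x) i) ≤
        dist (b.equivFunL (f y)) (b.equivFunL (f x)) := dist_le_pi_dist _ _ i
    have e2 : dist (b.equivFunL (f y)) (b.equivFunL (f x)) ≤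
        ‖b.equivFunL.toContinuousLinearMap‖ * dist (f y) (f x) := by
      rw [dist_eq_norm, dist_eq_norm, ← map_sub]
      exact b.equivFunL.toContinuousLinearMap.le_opNorm _
    calc _ ≤ _ := e1.trans e2
      _ ≤ ‖b.equivFunL.toContinuousLinearMap‖ * (K * dist y x) :=
        mul_le_mul_of_nonneg_left (hK y hy) (norm_nonneg _)
      _ = _ := by ring
  have h2 : f = fun x => b.equivFunL.symm (b.equivFunL (f x)) := by
    funext y; simp
  rw [h2]
  exact b.equivFunL.symm.differentiableAt.comp x h1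

end

end P198D
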